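import Mathlib
import Vale.Agent.P125.Defs
import Vale.Agent.P125.Core
import Vale.Agent.P125.Ultra
import Vale.Agent.P125.Renorm

/-!
P125, Q1: a real Banach space with Markov type `p > 1` has an equivalent uniformly smooth norm and
an equivalent uniformly convex norm.
-/

namespace Vale.Agent.Results.P125.MarkovTypeSuperreflexive

open Vale.Agent.P125

universe u

/-- Every real Banach space with nontrivial Markov type is superreflexive: it admits an equivalent
uniformly smooth norm and an equivalent uniformly convex norm. -/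
theorem result (X : Type u) [NormedAddCommGroup X] [NormedSpace ℝ X] [CompleteSpace X]
    (p : ℝ) (hp : 1 < p) (h : HasMarkovType X p) :
    (∃ n : Seminorm ℝ X, IsEquivNorm n ∧ IsUSNorm n) ∧
      (∃ n : Seminorm ℝ X, IsEquivNorm n ∧ IsUCNorm n) := by
  obtain ⟨K, hK, hMT⟩ := h
  rcases model_dichotomy (X := X) (by linarith : 0 < p) hK hMT with ⟨⟨M₁⟩, ⟨M₂⟩⟩ | ⟨σ, hσ⟩
  · obtain ⟨n, hn1, hn2⟩ := exists_ucNorm M₂
    exact ⟨exists_usNorm_of_dual n hn1 hn2, exists_ucNorm M₁⟩
  · exact absurd hσ (not_markovType_spread σ hp hK)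

end Vale.Agent.Results.P125.MarkovTypeSuperreflexive
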